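import Vale.Agent.P365.MathlibUsed

/-!
# P365: the torus `ZMod N × ZMod N`, its adjacency matrix, sup norm, balls and layers
-/

set_option linter.all false

namespace P365L

open Finset

/-- the discrete torus -/
abbrev Tor (N : ℕ) : Type := ZMod N × ZMod N

/-- the four neighbours of the origin -/
def nbs (N : ℕ) : Finset (Tor N) := {(1, 0), (-1, 0), (0, 1), (0, -1)}

/-- adjacency matrix of the torus -/
def AT (N : ℕ) : Matrix (Tor N) (Tor N) ℝ := fun x y => if y - x ∈ nbs N then 1 else 0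

theorem nbs_neg {N : ℕ} {a : Tor N} : -a ∈ nbs N ↔ a ∈ nbs N := by
  obtain ⟨a, b⟩ := a
  simp only [nbs, mem_insert, mem_singleton, Prod.neg_mk, Prod.mk.injEq, neg_eq_zero, neg_inj]
  constructor
  · rintro (⟨h1, h2⟩ | ⟨h1, h2⟩ | ⟨h1, h2⟩ | ⟨h1, h2⟩)
    · exact Or.inr (Or.inl ⟨by rw [← h1, neg_neg], h2⟩)
    · exact Or.inl ⟨h1, h2⟩
    · exact Or.inr (Or.inr (Or.inr ⟨h1, by rw [← h2, neg_neg]⟩))
    · exact Or.inr (Or.inr (Or.inl ⟨h1, h2⟩))
  · rintro (⟨h1, h2⟩ | ⟨h1, h2⟩ | ⟨h1, h2⟩ | ⟨h1, h2⟩)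
    · exact Or.inr (Or.inl ⟨h1, h2⟩)
    · exact Or.inl ⟨by rw [h1, neg_neg], h2⟩
    · exact Or.inr (Or.inr (Or.inr ⟨h1, h2⟩))
    · exact Or.inr (Or.inr (Or.inl ⟨h1, by rw [h2, neg_neg]⟩))

theorem AT_symm (N : ℕ) : (AT N).IsSymm := by
  ext x y
  have h : (x - y ∈ nbs N) ↔ (y - x ∈ nbs N) := by rw [← nbs_neg, neg_sub]
  simp only [Matrix.transpose_apply, AT, h]

theorem AT_eq_zero_or_one {N : ℕ} (x y : Tor N) : AT N x y = 0 ∨ AT N x y = 1 := by
  unfold AT; split_ifs <;> simp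

theorem AT_nonneg {N : ℕ} (x y : Tor N) : 0 ≤ AT N x y := by
  rcases AT_eq_zero_or_one x y with h | h <;> rw [h] <;> norm_num

theorem AT_sq {N : ℕ} (x y : Tor N) : AT N x y ^ 2 = AT N x y := by
  rcases AT_eq_zero_or_one x y with h | h <;> rw [h] <;> norm_num

theorem AT_translate {N : ℕ} (a x y : Tor N) : AT N (x + a) (y + a) = AT N x y := by
  unfold AT
  rw [add_sub_add_right_eq_sub]

section card

variable {N : ℕ} [NeZero N]

theorem card_nbs_le : (nbs N).card ≤ 4 := by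
  unfold nbs
  refine (card_insert_le _ _).trans ?_
  refine Nat.succ_le_succ ((card_insert_le _ _).trans ?_)
  refine Nat.succ_le_succ ((card_insert_le _ _).trans ?_)
  simp

/-- sums against a row of the adjacency matrix -/
theorem sum_AT (x : Tor N) (f : Tor N → ℝ) : ∑ y, AT N x y * f y = ∑ a ∈ nbs N, f (x + a) := by
  classical
  have h1 : ∀ y, AT N x y * f y = if y - x ∈ nbs N then f y else 0 := by
    intro y; unfold AT; split_ifs <;> simp
  simp only [h1]
  rw [← Equiv.sum_comp (Equiv.addLeft x)]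
  simp only [Equiv.coe_addLeft, add_sub_cancel_left]
  rw [← Finset.sum_filter]
  congr 1
  ext a
  simp

theorem row_sum_le (x : Tor N) : ∑ y, AT N x y ≤ 4 := by
  have h := sum_AT x (fun _ => 1)
  simp only [mul_one, sum_const, nsmul_eq_mul] at h
  rw [h]
  exact_mod_cast card_nbs_le

/-- the sup norm on the torus -/
def nrm (x : Tor N) : ℕ := max x.1.valMinAbs.natAbs x.2.valMinAbs.natAbs

theorem nrm_zero : nrm (0 : Tor N) = 0 := by
  simp [nrm]

theorem nrm_eq_zero {x : Tor N} : nrm x = 0 ↔ x = 0 := by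
  constructor
  · intro h
    have h1 : x.1.valMinAbs.natAbs = 0 := Nat.le_zero.1 (h ▸ le_max_left _ _)
    have h2 : x.2.valMinAbs.natAbs = 0 := Nat.le_zero.1 (h ▸ le_max_right _ _)
    rw [Int.natAbs_eq_zero, ZMod.valMinAbs_eq_zero] at h1 h2
    exact Prod.ext h1 h2
  · rintro rfl
    exact nrm_zero

theorem nrm_neg (x : Tor N) : nrm (-x) = nrm x := by
  simp only [nrm, Prod.fst_neg, Prod.snd_neg, ZMod.natAbs_valMinAbs_neg]

theorem nrm_add_le (x y : Tor N) : nrm (x + y) ≤ nrm x + nrm y := by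
  unfold nrm
  apply max_le
  · calc (x + y).1.valMinAbs.natAbs ≤ (x.1.valMinAbs + y.1.valMinAbs).natAbs :=
          ZMod.natAbs_valMinAbs_add_le _ _
      _ ≤ x.1.valMinAbs.natAbs + y.1.valMinAbs.natAbs := Int.natAbs_add_le _ _
      _ ≤ _ := Nat.add_le_add (le_max_left _ _) (le_max_left _ _)
  · calc (x + y).2.valMinAbs.natAbs ≤ (x.2.valMinAbs + y.2.valMinAbs).natAbs :=
          ZMod.natAbs_valMinAbs_add_le _ _
      _ ≤ x.2.valMinAbs.natAbs + y.2.valMinAbs.natAbs := Int.natAbs_add_le _ _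
      _ ≤ _ := Nat.add_le_add (le_max_right _ _) (le_max_right _ _)

theorem nrm_sub_comm (x y : Tor N) : nrm (x - y) = nrm (y - x) := by
  rw [← nrm_neg, neg_sub]

theorem nrm_le_half (x : Tor N) : nrm x ≤ N / 2 :=
  max_le (ZMod.natAbs_valMinAbs_le _) (ZMod.natAbs_valMinAbs_le _)

omit [NeZero N] in
theorem natAbs_valMinAbs_intCast_le [NeZero N] (k : ℤ) :
    ((k : ZMod N).valMinAbs).natAbs ≤ k.natAbs :=
  ZMod.natAbs_min_of_le_div_two N _ k (ZMod.coe_valMinAbs _) (ZMod.natAbs_valMinAbs_le _)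

theorem nrm_nbs {a : Tor N} (ha : a ∈ nbs N) : nrm a ≤ 1 := by
  have h1 : ((1 : ZMod N).valMinAbs).natAbs ≤ 1 := by
    have := natAbs_valMinAbs_intCast_le (N := N) 1
    simpa using this
  have h2 : ((-1 : ZMod N).valMinAbs).natAbs ≤ 1 := by
    rw [ZMod.natAbs_valMinAbs_neg]; exact h1
  simp only [nbs, mem_insert, mem_singleton] at ha
  rcases ha with rfl | rfl | rfl | rfl <;> simp [nrm, h1, h2]

/-- adjacent sites have norms differing by at most one -/
theorem nrm_adj {x y : Tor N} (h : AT N x y ≠ 0) : nrm y ≤ nrm x + 1 := by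
  have h1 : y - x ∈ nbs N := by
    by_contra hc
    exact h (by simp [AT, hc])
  calc nrm y = nrm (x + (y - x)) := by rw [add_sub_cancel]
    _ ≤ nrm x + nrm (y - x) := nrm_add_le _ _
    _ ≤ nrm x + 1 := Nat.add_le_add_left (nrm_nbs h1) _

theorem nrm_adj' {x y : Tor N} (h : AT N x y ≠ 0) : nrm x ≤ nrm y + 1 := by
  apply nrm_adj
  rwa [← (AT_symm N).apply]

/-- the projection of the plane onto the torus -/
def tor (N : ℕ) (p : ℤ × ℤ) : Tor N := ((p.1 : ZMod N), (p.2 : ZMod N))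

/-- sup norm ball -/
def ball (N : ℕ) [NeZero N] (r : ℕ) : Finset (Tor N) := univ.filter fun x => nrm x ≤ r

/-- sup norm layer -/
def layer (N : ℕ) [NeZero N] (r : ℕ) : Finset (Tor N) := univ.filter fun x => nrm x = r

theorem mem_ball {r : ℕ} {x : Tor N} : x ∈ ball N r ↔ nrm x ≤ r := by simp [ball]

theorem mem_layer {r : ℕ} {x : Tor N} : x ∈ layer N r ↔ nrm x = r := by simp [layer]

/-- planar box -/
noncomputable def pbox (r : ℕ) : Finset (ℤ × ℤ) := Icc (-(r : ℤ)) r ×ˢ Icc (-(r : ℤ)) r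

theorem card_pbox (r : ℕ) : (pbox r).card = (2 * r + 1) ^ 2 := by
  unfold pbox
  rw [card_product, Int.card_Icc, sq]
  have : ((r : ℤ) + 1 - -(r : ℤ)).toNat = 2 * r + 1 := by omega
  rw [this]

theorem valMinAbs_intCast {k : ℤ} (h : 2 * k.natAbs + 1 ≤ N) : (k : ZMod N).valMinAbs = k := by
  rw [ZMod.valMinAbs_spec]
  refine ⟨rfl, ?_, ?_⟩ <;> omega

theorem ball_eq_image {r : ℕ} (h : 2 * r + 1 ≤ N) : ball N r = (pbox r).image (tor N) := by
  ext x
  rw [mem_ball, mem_image]
  constructor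
  · intro hx
    refine ⟨(x.1.valMinAbs, x.2.valMinAbs), ?_, ?_⟩
    · unfold nrm at hx
      have h1 := (le_max_left _ _).trans hx
      have h2 := (le_max_right _ _).trans hx
      simp only [pbox, mem_product, mem_Icc]
      omega
    · simp [tor, ZMod.coe_valMinAbs]
  · rintro ⟨⟨a, b⟩, hp, rfl⟩
    simp only [pbox, mem_product, mem_Icc] at hp
    unfold nrm tor
    simp only
    rw [valMinAbs_intCast (by omega), valMinAbs_intCast (by omega)]
    omega

theorem tor_injOn {r : ℕ} (h : 2 * r + 1 ≤ N) : Set.InjOn (tor N) (pbox r : Set (ℤ × ℤ)) := by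
  rintro ⟨a, b⟩ hp ⟨a', b'⟩ hp' he
  simp only [pbox, coe_product, coe_Icc, Set.mem_prod, Set.mem_Icc] at hp hp'
  unfold tor at he
  simp only [Prod.mk.injEq] at he
  have h1 := congrArg ZMod.valMinAbs he.1
  have h2 := congrArg ZMod.valMinAbs he.2
  rw [valMinAbs_intCast (by omega), valMinAbs_intCast (by omega)] at h1 h2
  rw [h1, h2]

theorem card_ball {r : ℕ} (h : 2 * r + 1 ≤ N) : (ball N r).card = (2 * r + 1) ^ 2 := by
  rw [ball_eq_image h, card_image_of_injOn (tor_injOn h), card_pbox]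

theorem card_ball_le (r : ℕ) : (ball N r).card ≤ (2 * r + 1) ^ 2 := by
  have hsub : ball N r ⊆ (pbox r).image (tor N) := by
    intro x hx
    rw [mem_ball] at hx
    rw [mem_image]
    refine ⟨(x.1.valMinAbs, x.2.valMinAbs), ?_, ?_⟩
    · unfold nrm at hx
      have h1 := (le_max_left _ _).trans hx
      have h2 := (le_max_right _ _).trans hx
      simp only [pbox, mem_product, mem_Icc]
      omega
    · simp [tor, ZMod.coe_valMinAbs]
  exact (card_le_card hsub).trans (card_image_le.trans (card_pbox r).le)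

theorem ball_succ (r : ℕ) : ball N (r + 1) = ball N r ∪ layer N (r + 1) := by
  ext x
  simp only [mem_union, mem_ball, mem_layer]
  omega

theorem disjoint_ball_layer (r : ℕ) : Disjoint (ball N r) (layer N (r + 1)) := by
  rw [disjoint_left]
  intro x h1 h2
  rw [mem_ball] at h1
  rw [mem_layer] at h2
  omega

theorem card_layer {r : ℕ} (h0 : 1 ≤ r) (h : 2 * r + 1 ≤ N) : (layer N r).card = 8 * r := by
  obtain ⟨q, rfl⟩ : ∃ q, r = q + 1 := ⟨r - 1, by omega⟩
  have h1 := card_union_of_disjoint (disjoint_ball_layer (N := N) q)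
  rw [← ball_succ, card_ball h, card_ball (show 2 * q + 1 ≤ N by omega)] at h1
  have h2 : (2 * (q + 1) + 1) ^ 2 = (2 * q + 1) ^ 2 + 8 * (q + 1) := by ring
  omega

theorem card_layer_le {r : ℕ} (h0 : 1 ≤ r) (h : 2 * r + 1 ≤ N) : (layer N r).card ≤ 8 * r :=
  (card_layer h0 h).le

/-- the radial cut-off: `1` on `nrm ≤ l`, `0` on `nrm ≥ l + w`, slope `1/w` in between -/
noncomputable def cut (l w : ℕ) (x : Tor N) : ℝ :=
  if nrm x ≤ l then 1 else if l + w ≤ nrm x then 0 else ((l + w : ℕ) - nrm x : ℝ) / w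

theorem cut_eq_one {l w : ℕ} {x : Tor N} (h : nrm x ≤ l) : cut l w x = 1 := by
  unfold cut; rw [if_pos h]

theorem cut_eq_zero {l w : ℕ} (hw : 0 < w) {x : Tor N} (h : l + w ≤ nrm x) : cut l w x = 0 := by
  unfold cut; rw [if_neg (by omega), if_pos h]

theorem cut_eq {l w : ℕ} (hw : 0 < w) (x : Tor N) :
    cut l w x = max 0 (min 1 (((l + w : ℕ) - nrm x : ℝ) / w)) := by
  have hw' : (0 : ℝ) < w := by exact_mod_cast hw
  unfold cut
  split_ifs with h1 h2
  · have h3 : (nrm x : ℝ) ≤ l := by exact_mod_cast h1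
    have h4 : (1 : ℝ) ≤ ((l + w : ℕ) - nrm x : ℝ) / w := by
      rw [le_div_iff₀ hw']; push_cast; linarith
    rw [min_eq_left h4, max_eq_right zero_le_one]
  · have h3 : ((l + w : ℕ) : ℝ) ≤ nrm x := by exact_mod_cast h2
    have h4 : ((l + w : ℕ) - nrm x : ℝ) / w ≤ 0 :=
      div_nonpos_of_nonpos_of_nonneg (by linarith) hw'.le
    rw [max_eq_left ((min_le_right _ _).trans h4)]
  · have h3 : (l : ℝ) < nrm x := by exact_mod_cast not_le.1 h1
    have h5 : (nrm x : ℝ) < ((l + w : ℕ) : ℝ) := by exact_mod_cast not_le.1 h2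
    have h4 : ((l + w : ℕ) - nrm x : ℝ) / w ≤ 1 := by
      rw [div_le_one hw']; push_cast; linarith
    have h6 : 0 ≤ ((l + w : ℕ) - nrm x : ℝ) / w := div_nonneg (by linarith) hw'.le
    rw [min_eq_right h4, max_eq_right h6]

theorem abs_cut_sub_le {l w : ℕ} (hw : 0 < w) (x y : Tor N) :
    |cut l w x - cut l w y| ≤ |(nrm x : ℝ) - nrm y| / w := by
  have hw' : (0 : ℝ) < w := by exact_mod_cast hw
  rw [cut_eq hw, cut_eq hw]
  refine (abs_max_sub_max_le_max _ _ _ _).trans ?_
  rw [sub_zero, abs_zero]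
  refine max_le (by positivity) ?_
  refine (abs_min_sub_min_le_max _ _ _ _).trans ?_
  rw [sub_self, abs_zero]
  refine max_le (by positivity) (le_of_eq ?_)
  rw [← sub_div, abs_div, abs_of_pos hw']
  congr 1
  rw [← abs_neg]
  congr 1
  ring

/-- energy of the radial cut-off -/
theorem cut_energy_le {l w : ℕ} (hw : 0 < w) :
    ∑ x : Tor N, ∑ y, AT N x y * (cut l w x - cut l w y) ^ 2 ≤
      8 * (2 * (l + w) + 1) ^ 2 / (w : ℝ) ^ 2 := by
  have hw' : (0 : ℝ) < w := by exact_mod_cast hw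
  -- each edge term
  have hterm : ∀ x y : Tor N, AT N x y * (cut l w x - cut l w y) ^ 2 ≤
      (if x ∈ ball N (l + w) then AT N x y * (1 / (w : ℝ) ^ 2) else 0) +
      (if y ∈ ball N (l + w) then AT N x y * (1 / (w : ℝ) ^ 2) else 0) := by
    intro x y
    by_cases h0 : AT N x y = 0
    · rw [h0]
      simp
    have hA := AT_nonneg x y
    have hq : (0 : ℝ) ≤ AT N x y * (1 / (w : ℝ) ^ 2) := by positivity
    by_cases hx : x ∈ ball N (l + w)
    · have h1 : (cut l w x - cut l w y) ^ 2 ≤ 1 / (w : ℝ) ^ 2 := by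
        rw [← sq_abs]
        have h2 := abs_cut_sub_le (l := l) hw x y
        have h3 : |(nrm x : ℝ) - nrm y| ≤ 1 := by
          have h4 := nrm_adj h0
          have h5 := nrm_adj' h0
          have h4' : (nrm y : ℝ) ≤ nrm x + 1 := by exact_mod_cast h4
          have h5' : (nrm x : ℝ) ≤ nrm y + 1 := by exact_mod_cast h5
          rw [abs_le]; constructor <;> linarith
        have h6 : |cut l w x - cut l w y| ≤ 1 / w :=
          h2.trans (div_le_div_of_nonneg_right h3 hw'.le)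
        calc |cut l w x - cut l w y| ^ 2 ≤ (1 / (w : ℝ)) ^ 2 :=
              pow_le_pow_left₀ (abs_nonneg _) h6 2
          _ = 1 / (w : ℝ) ^ 2 := by rw [div_pow, one_pow]
      rw [if_pos hx]
      have := mul_le_mul_of_nonneg_left h1 hA
      split_ifs <;> linarith
    · by_cases hy : y ∈ ball N (l + w)
      · have h1 : (cut l w x - cut l w y) ^ 2 ≤ 1 / (w : ℝ) ^ 2 := by
          rw [← sq_abs]
          have h2 := abs_cut_sub_le (l := l) hw x y
          have h3 : |(nrm x : ℝ) - nrm y| ≤ 1 := by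
            have h4 := nrm_adj h0
            have h5 := nrm_adj' h0
            have h4' : (nrm y : ℝ) ≤ nrm x + 1 := by exact_mod_cast h4
            have h5' : (nrm x : ℝ) ≤ nrm y + 1 := by exact_mod_cast h5
            rw [abs_le]; constructor <;> linarith
          have h6 : |cut l w x - cut l w y| ≤ 1 / w :=
            h2.trans (div_le_div_of_nonneg_right h3 hw'.le)
          calc |cut l w x - cut l w y| ^ 2 ≤ (1 / (w : ℝ)) ^ 2 :=
                pow_le_pow_left₀ (abs_nonneg _) h6 2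
            _ = 1 / (w : ℝ) ^ 2 := by rw [div_pow, one_pow]
        rw [if_neg hx, if_pos hy, zero_add]
        exact mul_le_mul_of_nonneg_left h1 hA
      · rw [mem_ball, not_le] at hx hy
        rw [cut_eq_zero hw hx.le, cut_eq_zero hw hy.le]
        have : (0 : ℝ) ≤ (if x ∈ ball N (l + w) then AT N x y * (1 / (w : ℝ) ^ 2) else 0) +
          (if y ∈ ball N (l + w) then AT N x y * (1 / (w : ℝ) ^ 2) else 0) := by
          split_ifs <;> linarith
        simpa using this
  have hsum : ∑ x : Tor N, (if x ∈ ball N (l + w) then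
      (∑ y, AT N x y) * (1 / (w : ℝ) ^ 2) else 0) ≤
      4 * (2 * (l + w) + 1) ^ 2 / (w : ℝ) ^ 2 := by
    rw [← Finset.sum_filter]
    have h1 : ∀ x ∈ univ.filter (fun x : Tor N => x ∈ ball N (l + w)),
        (∑ y, AT N x y) * (1 / (w : ℝ) ^ 2) ≤ 4 * (1 / (w : ℝ) ^ 2) := fun x _ =>
      mul_le_mul_of_nonneg_right (row_sum_le x) (by positivity)
    refine (Finset.sum_le_sum h1).trans ?_
    rw [sum_const, nsmul_eq_mul]
    have h2 : univ.filter (fun x : Tor N => x ∈ ball N (l + w)) = ball N (l + w) := by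
      ext x; simp
    rw [h2]
    have h3 : ((ball N (l + w)).card : ℝ) ≤ (2 * (l + w) + 1) ^ 2 := by
      exact_mod_cast card_ball_le (N := N) (l + w)
    calc ((ball N (l + w)).card : ℝ) * (4 * (1 / (w : ℝ) ^ 2))
        ≤ (2 * (l + w) + 1) ^ 2 * (4 * (1 / (w : ℝ) ^ 2)) :=
          mul_le_mul_of_nonneg_right h3 (by positivity)
      _ = _ := by ring
  calc ∑ x : Tor N, ∑ y, AT N x y * (cut l w x - cut l w y) ^ 2
      ≤ ∑ x : Tor N, ∑ y, ((if x ∈ ball N (l + w) then AT N x y * (1 / (w : ℝ) ^ 2) else 0) +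
        (if y ∈ ball N (l + w) then AT N x y * (1 / (w : ℝ) ^ 2) else 0)) :=
        Finset.sum_le_sum fun x _ => Finset.sum_le_sum fun y _ => hterm x y
    _ = ∑ x : Tor N, (if x ∈ ball N (l + w) then (∑ y, AT N x y) * (1 / (w : ℝ) ^ 2) else 0) +
        ∑ y : Tor N, (if y ∈ ball N (l + w) then (∑ x, AT N y x) * (1 / (w : ℝ) ^ 2) else 0) := by
        simp only [Finset.sum_add_distrib]
        congr 1
        · refine Finset.sum_congr rfl fun x _ => ?_
          split_ifs
          · rw [Finset.sum_mul]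
          · simp
        · rw [Finset.sum_comm]
          refine Finset.sum_congr rfl fun y _ => ?_
          split_ifs
          · rw [Finset.sum_mul]
            refine Finset.sum_congr rfl fun x _ => ?_
            rw [(AT_symm N).apply]
          · simp
    _ ≤ 4 * (2 * (l + w) + 1) ^ 2 / (w : ℝ) ^ 2 + 4 * (2 * (l + w) + 1) ^ 2 / (w : ℝ) ^ 2 :=
        add_le_add hsum hsum
    _ = 8 * (2 * (l + w) + 1) ^ 2 / (w : ℝ) ^ 2 := by ring

end card

end P365L
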