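import Vale.Agent.P365.Torus.Stat

/-!
# P365: the four characters of the torus

`phi N i`, `i : Fin 4`: `cos (k x₁)/k`, `sin (k x₁)/k`, `cos (k x₂)/k`, `sin (k x₂)/k`, `k = 2π/N`.
-/

set_option linter.all false

namespace P365L

open Finset

/-- the frequency `k = 2π/N` -/
noncomputable def kN (N : ℕ) : ℝ := 2 * Real.pi / N

section one

variable {N : ℕ} [NeZero N]

theorem kN_pos : 0 < kN N := by
  have hN : (0 : ℝ) < N := by exact_mod_cast NeZero.pos N
  unfold kN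
  positivity

theorem kN_mul (N : ℕ) [NeZero N] : kN N * N = 2 * Real.pi := by
  have hN : (N : ℝ) ≠ 0 := by exact_mod_cast NeZero.ne N
  unfold kN
  field_simp

/-- the angle `k z` -/
noncomputable def ang (z : ZMod N) : ℝ := kN N * (z.valMinAbs : ℝ)

theorem exists_int_sub (z w : ZMod N) :
    ∃ q : ℤ, z.valMinAbs - w.valMinAbs = (z - w).valMinAbs + N * q := by
  have h : ((z.valMinAbs - w.valMinAbs : ℤ) : ZMod N) = (((z - w).valMinAbs : ℤ) : ZMod N) := by
    push_cast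
    simp only [ZMod.coe_valMinAbs]
  rw [ZMod.intCast_eq_intCast_iff_dvd_sub] at h
  obtain ⟨q, hq⟩ := h
  exact ⟨-q, by linarith⟩

theorem exists_int_add (z w : ZMod N) :
    ∃ q : ℤ, (z + w).valMinAbs = z.valMinAbs + w.valMinAbs + N * q := by
  have h : (((z + w).valMinAbs : ℤ) : ZMod N) = ((z.valMinAbs + w.valMinAbs : ℤ) : ZMod N) := by
    push_cast
    simp only [ZMod.coe_valMinAbs]
  rw [ZMod.intCast_eq_intCast_iff_dvd_sub] at h
  obtain ⟨q, hq⟩ := h
  exact ⟨-q, by linarith⟩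

theorem ang_sub (z w : ZMod N) : ∃ q : ℤ, ang z - ang w = ang (z - w) + q * (2 * Real.pi) := by
  obtain ⟨q, hq⟩ := exists_int_sub z w
  refine ⟨q, ?_⟩
  have h : (z.valMinAbs : ℝ) - w.valMinAbs = (z - w).valMinAbs + N * q := by exact_mod_cast hq
  unfold ang
  rw [← mul_sub, h, ← kN_mul N]
  ring

theorem ang_add (z w : ZMod N) : ∃ q : ℤ, ang (z + w) = ang z + ang w + q * (2 * Real.pi) := by
  obtain ⟨q, hq⟩ := exists_int_add z w
  refine ⟨q, ?_⟩
  have h : ((z + w).valMinAbs : ℝ) = z.valMinAbs + w.valMinAbs + N * q := by exact_mod_cast hq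
  unfold ang
  rw [h, ← kN_mul N]
  ring

theorem cos_ang_add (z w : ZMod N) : Real.cos (ang (z + w)) =
    Real.cos (ang z) * Real.cos (ang w) - Real.sin (ang z) * Real.sin (ang w) := by
  obtain ⟨q, hq⟩ := ang_add z w
  rw [hq, Real.cos_add_int_mul_two_pi, Real.cos_add]

theorem sin_ang_add (z w : ZMod N) : Real.sin (ang (z + w)) =
    Real.sin (ang z) * Real.cos (ang w) + Real.cos (ang z) * Real.sin (ang w) := by
  obtain ⟨q, hq⟩ := ang_add z w
  rw [hq, Real.sin_add_int_mul_two_pi, Real.sin_add]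

theorem sq_add_sq_ang (z w : ZMod N) :
    (Real.cos (ang z) - Real.cos (ang w)) ^ 2 + (Real.sin (ang z) - Real.sin (ang w)) ^ 2 =
      4 * Real.sin (ang (z - w) / 2) ^ 2 := by
  have h1 : Real.cos (ang z - ang w) = Real.cos (ang (z - w)) := by
    obtain ⟨q, hq⟩ := ang_sub z w
    rw [hq, Real.cos_add_int_mul_two_pi]
  rw [Real.cos_sub] at h1
  have h2 : Real.cos (ang (z - w)) = 1 - 2 * Real.sin (ang (z - w) / 2) ^ 2 := by
    have := Real.cos_two_mul (ang (z - w) / 2)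
    rw [mul_div_cancel₀ _ (two_ne_zero)] at this
    rw [this, Real.cos_sq']
    ring
  have h3 := Real.sin_sq_add_cos_sq (ang z)
  have h4 := Real.sin_sq_add_cos_sq (ang w)
  nlinarith [h1, h2, h3, h4]

theorem abs_ang_le (z : ZMod N) : |ang z| ≤ Real.pi := by
  have hN : (0 : ℝ) < N := by exact_mod_cast NeZero.pos N
  have h : (z.valMinAbs.natAbs : ℝ) ≤ N / 2 := by
    have h1 : z.valMinAbs.natAbs ≤ N / 2 := ZMod.natAbs_valMinAbs_le _
    have h2 : z.valMinAbs.natAbs * 2 ≤ N := by omega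
    have h3 : (z.valMinAbs.natAbs : ℝ) * 2 ≤ N := by exact_mod_cast h2
    linarith
  unfold ang
  rw [abs_mul, abs_of_pos kN_pos, ← Int.cast_abs, Int.abs_eq_natAbs, Int.cast_natCast]
  calc kN N * (z.valMinAbs.natAbs : ℝ) ≤ kN N * (N / 2) :=
        mul_le_mul_of_nonneg_left h kN_pos.le
    _ = kN N * N / 2 := by ring
    _ = Real.pi := by rw [kN_mul]; ring

theorem four_sin_sq_le (z : ZMod N) :
    4 * Real.sin (ang z / 2) ^ 2 ≤ kN N ^ 2 * (z.valMinAbs.natAbs : ℝ) ^ 2 := by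
  have h1 : |Real.sin (ang z / 2)| ≤ |ang z / 2| := Real.abs_sin_le_abs
  have h2 : Real.sin (ang z / 2) ^ 2 ≤ (ang z / 2) ^ 2 := sq_le_sq.2 h1
  have h3 : (ang z) ^ 2 = kN N ^ 2 * (z.valMinAbs.natAbs : ℝ) ^ 2 := by
    unfold ang
    rw [mul_pow]
    congr 1
    rw [← Int.cast_natCast (R := ℝ), ← Int.cast_pow, ← Int.cast_pow, Int.natCast_natAbs, sq_abs]
  rw [← h3]
  nlinarith

theorem four_sin_sq_ge (z : ZMod N) :
    4 / Real.pi ^ 2 * (kN N ^ 2 * (z.valMinAbs.natAbs : ℝ) ^ 2) ≤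
      4 * Real.sin (ang z / 2) ^ 2 := by
  have hpi := Real.pi_pos
  have h0 := abs_ang_le z
  have h1 : 2 / Real.pi * |ang z / 2| ≤ |Real.sin (ang z / 2)| := by
    have h2 : 2 / Real.pi * |ang z / 2| ≤ Real.sin |ang z / 2| :=
      Real.mul_le_sin (abs_nonneg _) (by rw [abs_div, abs_two]; linarith)
    refine h2.trans ?_
    rcases abs_choice (ang z / 2) with h | h
    · rw [h]; exact le_abs_self _
    · rw [h, Real.sin_neg]; exact neg_le_abs _
  have h3 : (2 / Real.pi * |ang z / 2|) ^ 2 ≤ Real.sin (ang z / 2) ^ 2 := by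
    rw [← sq_abs (Real.sin (ang z / 2))]
    exact pow_le_pow_left₀ (by positivity) h1 2
  have h4 : (ang z) ^ 2 = kN N ^ 2 * (z.valMinAbs.natAbs : ℝ) ^ 2 := by
    unfold ang
    rw [mul_pow]
    congr 1
    rw [← Int.cast_natCast (R := ℝ), ← Int.cast_pow, ← Int.cast_pow, Int.natCast_natAbs, sq_abs]
  rw [mul_pow, sq_abs] at h3
  rw [← h4]
  calc 4 / Real.pi ^ 2 * ang z ^ 2 = 4 * ((2 / Real.pi) ^ 2 * (ang z / 2) ^ 2) := by
        field_simp
    _ ≤ _ := by linarith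

end one

/-- the four characters divided by `k` -/
noncomputable def phi (N : ℕ) (i : Fin 4) (x : Tor N) : ℝ :=
  ![Real.cos (ang x.1), Real.sin (ang x.1), Real.cos (ang x.2), Real.sin (ang x.2)] i / kN N

/-- `∑ i, (phi i x - phi i y)^2` -/
noncomputable def dsq {N : ℕ} (x y : Tor N) : ℝ := ∑ i, (phi N i x - phi N i y) ^ 2

section four

variable {N : ℕ} [NeZero N]

theorem dsq_eq (x y : Tor N) : dsq x y =
    (4 * Real.sin (ang (x.1 - y.1) / 2) ^ 2 + 4 * Real.sin (ang (x.2 - y.2) / 2) ^ 2) /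
      kN N ^ 2 := by
  have hk : kN N ≠ 0 := kN_pos.ne'
  unfold dsq
  rw [Fin.sum_univ_four, ← sq_add_sq_ang, ← sq_add_sq_ang]
  simp only [phi, Matrix.cons_val_zero, Matrix.cons_val_one, Matrix.cons_val]
  field_simp
  ring

theorem dsq_comm (x y : Tor N) : dsq x y = dsq y x := by
  unfold dsq
  exact Finset.sum_congr rfl fun i _ => by ring

theorem dsq_nonneg (x y : Tor N) : 0 ≤ dsq x y := Finset.sum_nonneg fun i _ => sq_nonneg _

theorem dsq_translate (a x y : Tor N) : dsq (x + a) (y + a) = dsq x y := by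
  rw [dsq_eq, dsq_eq]
  simp only [Prod.fst_add, Prod.snd_add, add_sub_add_right_eq_sub]

theorem sq_natAbs_le_nrm_fst (x : Tor N) :
    (x.1.valMinAbs.natAbs : ℝ) ^ 2 ≤ (nrm x : ℝ) ^ 2 := by
  have : x.1.valMinAbs.natAbs ≤ nrm x := le_max_left _ _
  exact_mod_cast Nat.pow_le_pow_left this 2

theorem sq_natAbs_le_nrm_snd (x : Tor N) :
    (x.2.valMinAbs.natAbs : ℝ) ^ 2 ≤ (nrm x : ℝ) ^ 2 := by
  have : x.2.valMinAbs.natAbs ≤ nrm x := le_max_right _ _
  exact_mod_cast Nat.pow_le_pow_left this 2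

theorem sq_nrm_le (x : Tor N) :
    (nrm x : ℝ) ^ 2 ≤ (x.1.valMinAbs.natAbs : ℝ) ^ 2 + (x.2.valMinAbs.natAbs : ℝ) ^ 2 := by
  rcases le_total x.1.valMinAbs.natAbs x.2.valMinAbs.natAbs with h | h
  · rw [nrm, max_eq_right h]
    nlinarith [sq_nonneg ((x.1.valMinAbs.natAbs : ℝ))]
  · rw [nrm, max_eq_left h]
    nlinarith [sq_nonneg ((x.2.valMinAbs.natAbs : ℝ))]

/-- `∑ i (phi i x - phi i y)^2 ≥ (4/π²) nrm (x - y)^2` -/
theorem dsq_ge (x y : Tor N) : 4 / Real.pi ^ 2 * (nrm (x - y) : ℝ) ^ 2 ≤ dsq x y := by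
  have hk : 0 < kN N := kN_pos
  have hpi := Real.pi_pos
  rw [dsq_eq, le_div_iff₀ (by positivity)]
  have h1 := four_sin_sq_ge (x.1 - y.1)
  have h2 := four_sin_sq_ge (x.2 - y.2)
  have h3 := sq_nrm_le (x - y)
  rw [Prod.fst_sub, Prod.snd_sub] at h3
  calc 4 / Real.pi ^ 2 * (nrm (x - y) : ℝ) ^ 2 * kN N ^ 2
      ≤ 4 / Real.pi ^ 2 * (((x.1 - y.1).valMinAbs.natAbs : ℝ) ^ 2 +
          ((x.2 - y.2).valMinAbs.natAbs : ℝ) ^ 2) * kN N ^ 2 := by
        gcongr
    _ = 4 / Real.pi ^ 2 * (kN N ^ 2 * ((x.1 - y.1).valMinAbs.natAbs : ℝ) ^ 2) +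
          4 / Real.pi ^ 2 * (kN N ^ 2 * ((x.2 - y.2).valMinAbs.natAbs : ℝ) ^ 2) := by ring
    _ ≤ _ := by linarith

theorem dsq_le (x y : Tor N) : dsq x y ≤ 2 * (nrm (x - y) : ℝ) ^ 2 := by
  have hk : 0 < kN N := kN_pos
  rw [dsq_eq, div_le_iff₀ (by positivity)]
  have h1 := four_sin_sq_le (x.1 - y.1)
  have h2 := four_sin_sq_le (x.2 - y.2)
  have h3 := sq_natAbs_le_nrm_fst (x - y)
  have h4 := sq_natAbs_le_nrm_snd (x - y)
  rw [Prod.fst_sub] at h3
  rw [Prod.snd_sub] at h4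
  nlinarith [mul_le_mul_of_nonneg_left h3 (sq_nonneg (kN N)),
    mul_le_mul_of_nonneg_left h4 (sq_nonneg (kN N))]

theorem phi_lip (i : Fin 4) (x y : Tor N) : |phi N i x - phi N i y| ≤ nrm (x - y) := by
  have hk : 0 < kN N := kN_pos
  have hsq : ∀ (z w : ZMod N), (z - w).valMinAbs.natAbs ≤ nrm (x - y) → ∀ u v : ℝ,
      (u = Real.cos (ang z) - Real.cos (ang w) ∨ u = Real.sin (ang z) - Real.sin (ang w)) →
      v = u / kN N → |v| ≤ nrm (x - y) := by
    intro z w hn u v hu hv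
    have h1 : u ^ 2 ≤ 4 * Real.sin (ang (z - w) / 2) ^ 2 := by
      rw [← sq_add_sq_ang]
      rcases hu with h | h
      · rw [h]; nlinarith [sq_nonneg (Real.sin (ang z) - Real.sin (ang w))]
      · rw [h]; nlinarith [sq_nonneg (Real.cos (ang z) - Real.cos (ang w))]
    have h2 := h1.trans (four_sin_sq_le (z - w))
    have h3 : ((z - w).valMinAbs.natAbs : ℝ) ≤ nrm (x - y) := by exact_mod_cast hn
    rw [hv, abs_div, abs_of_pos hk, div_le_iff₀ hk]
    have h4 : |u| ^ 2 ≤ (kN N * ((z - w).valMinAbs.natAbs : ℝ)) ^ 2 := by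
      rw [sq_abs, mul_pow]; exact h2
    have h5 : |u| ≤ kN N * ((z - w).valMinAbs.natAbs : ℝ) :=
      le_of_sq_le_sq h4 (by positivity)
    refine h5.trans ?_
    rw [mul_comm]
    exact mul_le_mul_of_nonneg_right h3 hk.le
  have hx1 : (x.1 - y.1).valMinAbs.natAbs ≤ nrm (x - y) := le_max_left _ _
  have hx2 : (x.2 - y.2).valMinAbs.natAbs ≤ nrm (x - y) := le_max_right _ _
  fin_cases i
  · exact hsq x.1 y.1 hx1 _ _ (Or.inl rfl) (by simp [phi, sub_div])
  · exact hsq x.1 y.1 hx1 _ _ (Or.inr rfl) (by simp [phi, sub_div])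
  · exact hsq x.2 y.2 hx2 _ _ (Or.inl rfl) (by simp [phi, sub_div])
  · exact hsq x.2 y.2 hx2 _ _ (Or.inr rfl) (by simp [phi, sub_div])

theorem edge_energy_of_lip {f : Tor N → ℝ} (hf : ∀ x y, |f x - f y| ≤ nrm (x - y)) :
    ∑ x, ∑ y, AT N x y * (f x - f y) ^ 2 ≤ 4 * (N : ℝ) ^ 2 := by
  have h1 : ∀ x y : Tor N, AT N x y * (f x - f y) ^ 2 ≤ AT N x y := by
    intro x y
    by_cases h : y - x ∈ nbs N
    · have h2 : nrm (x - y) ≤ 1 := by rw [nrm_sub_comm]; exact nrm_nbs h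
      have h3 : |f x - f y| ≤ 1 := (hf x y).trans (by exact_mod_cast h2)
      have h4 : (f x - f y) ^ 2 ≤ 1 := by
        rw [← sq_abs]; nlinarith [abs_nonneg (f x - f y)]
      nlinarith [AT_nonneg x y]
    · have : AT N x y = 0 := by unfold AT; rw [if_neg h]
      rw [this, zero_mul]
  calc ∑ x, ∑ y, AT N x y * (f x - f y) ^ 2 ≤ ∑ x : Tor N, ∑ y, AT N x y :=
        Finset.sum_le_sum fun x _ => Finset.sum_le_sum fun y _ => h1 x y
    _ ≤ ∑ _x : Tor N, (4 : ℝ) := Finset.sum_le_sum fun x _ => row_sum_le x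
    _ = 4 * (N : ℝ) ^ 2 := by
        rw [Finset.sum_const, Finset.card_univ, Fintype.card_prod, ZMod.card, nsmul_eq_mul]
        push_cast
        ring

theorem phi_energy_le (i : Fin 4) :
    ∑ x, ∑ y, AT N x y * (phi N i x - phi N i y) ^ 2 ≤ 4 * (N : ℝ) ^ 2 :=
  edge_energy_of_lip (phi_lip i)

theorem card_Tor : (Fintype.card (Tor N) : ℝ) = (N : ℝ) ^ 2 := by
  rw [Fintype.card_prod, ZMod.card]
  push_cast
  ring

/-- `∑ i, (∑ y, p y * phi i y - phi i x)^2` as a double sum of cosines: it only depends on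
differences, hence it is translation invariant. -/
theorem phi_rot (a : Tor N) (p : Tor N → ℝ) (x : Tor N) :
    ∑ i, ((∑ y, p y * phi N i (y + a)) - phi N i (x + a)) ^ 2 =
      ∑ i, ((∑ y, p y * phi N i y) - phi N i x) ^ 2 := by
  have hk : kN N ≠ 0 := kN_pos.ne'
  have key : ∀ q : Tor N → ℝ, ∀ pr : Tor N → ZMod N, ∀ b : ZMod N,
      (∑ y, q y * Real.cos (ang (pr y + b))) ^ 2 + (∑ y, q y * Real.sin (ang (pr y + b))) ^ 2 =
      (∑ y, q y * Real.cos (ang (pr y))) ^ 2 + (∑ y, q y * Real.sin (ang (pr y))) ^ 2 := by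
    intro q pr b
    have h1 : ∑ y, q y * Real.cos (ang (pr y + b)) =
        (∑ y, q y * Real.cos (ang (pr y))) * Real.cos (ang b) -
          (∑ y, q y * Real.sin (ang (pr y))) * Real.sin (ang b) := by
      rw [Finset.sum_mul, Finset.sum_mul, ← Finset.sum_sub_distrib]
      exact Finset.sum_congr rfl fun y _ => by rw [cos_ang_add]; ring
    have h2 : ∑ y, q y * Real.sin (ang (pr y + b)) =
        (∑ y, q y * Real.sin (ang (pr y))) * Real.cos (ang b) +
          (∑ y, q y * Real.cos (ang (pr y))) * Real.sin (ang b) := by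
      rw [Finset.sum_mul, Finset.sum_mul, ← Finset.sum_add_distrib]
      exact Finset.sum_congr rfl fun y _ => by rw [sin_ang_add]; ring
    rw [h1, h2]
    have h3 := Real.sin_sq_add_cos_sq (ang b)
    linear_combination ((∑ y, q y * Real.cos (ang (pr y))) ^ 2 +
      (∑ y, q y * Real.sin (ang (pr y))) ^ 2) * h3
  -- put the base point into the weights
  have hq : ∀ f : Tor N → ℝ, (∑ y, p y * f y) - f x = ∑ y, (p y - if y = x then 1 else 0) * f y := by
    intro f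
    simp only [sub_mul, Finset.sum_sub_distrib, ite_mul, one_mul, zero_mul, Finset.sum_ite_eq',
      Finset.mem_univ, if_true]
  have hq' : ∀ i : Fin 4, ∀ b : Tor N, (∑ y, p y * phi N i (y + b)) - phi N i (x + b) =
      (∑ y, (p y - if y = x then 1 else 0) *
        ![Real.cos (ang (y + b).1), Real.sin (ang (y + b).1), Real.cos (ang (y + b).2),
          Real.sin (ang (y + b).2)] i) / kN N := by
    intro i b
    rw [hq fun y => phi N i (y + b), Finset.sum_div]
    exact Finset.sum_congr rfl fun y _ => by rw [phi]; ring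
  have hq0 : ∀ i : Fin 4, (∑ y, p y * phi N i y) - phi N i x =
      (∑ y, (p y - if y = x then 1 else 0) *
        ![Real.cos (ang y.1), Real.sin (ang y.1), Real.cos (ang y.2),
          Real.sin (ang y.2)] i) / kN N := by
    intro i
    have := hq' i 0
    simpa using this
  simp only [hq', hq0]
  rw [Fin.sum_univ_four, Fin.sum_univ_four]
  simp only [Matrix.cons_val_zero, Matrix.cons_val_one, Matrix.cons_val, div_pow, Prod.fst_add,
    Prod.snd_add]
  have k1 := key (fun y => p y - if y = x then 1 else 0) (fun y => y.1) a.1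
  have k2 := key (fun y => p y - if y = x then 1 else 0) (fun y => y.2) a.2
  rw [← add_div, ← add_div, ← add_div, ← add_div, ← add_div, ← add_div, k1, add_assoc, k2,
    ← add_assoc]

/-- the loss term of the four characters is covariant -/
theorem Cov_loss : Cov fun x W => ∑ i, mm (AT N) W x * muf (AT N) W (phi N i) x ^ 2 := by
  intro a x W
  have hT : TI (AT N) := TI_AT N
  simp only []
  rw [mm_sh hT, ← Finset.mul_sum, ← Finset.mul_sum]
  congr 1
  have h1 := phi_rot (-a) (fun y => PP (AT N) W (x + a) y) (x + a)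
  refine Eq.trans ?_ h1
  refine Finset.sum_congr rfl fun i _ => ?_
  congr 1
  unfold muf
  rw [add_neg_cancel_right]
  congr 1
  rw [← Equiv.sum_comp (Equiv.addRight a) fun y => PP (AT N) W (x + a) y * phi N i (y + -a)]
  refine Finset.sum_congr rfl fun y _ => ?_
  rw [PP_sh hT]
  simp

end four

end P365L
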