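import Vale.Agent.P365.Open.Defs
import Vale.Agent.P365.Torus.Base

/-!
# P365: translation invariance of the Green matrix and of the law; mass transport

`sh a f = fun x => f (x + a)`.
-/

set_option linter.all false

namespace P365L

open MeasureTheory ProbabilityTheory Complex P365L.Poi P365F Matrix
open scoped ENNReal NNReal

section shift

variable {ι : Type*} [AddCommGroup ι]

/-- translation of a function -/
def sh {β : Type*} (a : ι) (f : ι → β) : ι → β := fun x => f (x + a)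

theorem sh_apply {β : Type*} (a : ι) (f : ι → β) (x : ι) : sh a f x = f (x + a) := rfl

theorem sh_zero {β : Type*} (f : ι → β) : sh (0 : ι) f = f := by
  funext x; simp [sh]

theorem sh_sh {β : Type*} (a b : ι) (f : ι → β) : sh a (sh b f) = sh (a + b) f := by
  funext x; simp [sh, add_assoc]

theorem sh_const {β : Type*} (a : ι) (b : β) : sh a (fun _ : ι => b) = fun _ => b := rfl

/-- translation invariant matrix -/
def TI (A : Matrix ι ι ℝ) : Prop := ∀ a x y, A (x + a) (y + a) = A x y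

theorem TI_AT (N : ℕ) : TI (AT N) := fun a x y => AT_translate a x y

variable [Fintype ι] [DecidableEq ι]

omit [Fintype ι] in
theorem Kmat_sh {A : Matrix ι ι ℝ} (hT : TI A) (a : ι) (W : ι → ℂ) :
    Kmat A (sh a W) = (Kmat A W).submatrix (Equiv.addRight a) (Equiv.addRight a) := by
  ext x y
  simp only [Kmat, Matrix.add_apply, Matrix.map_apply, Matrix.submatrix_apply,
    Equiv.coe_addRight, hT a x y]
  congr 1
  by_cases h : x = y
  · subst h
    rw [Matrix.diagonal_apply_eq, Matrix.diagonal_apply_eq, sh_apply]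
  · rw [Matrix.diagonal_apply_ne _ h, Matrix.diagonal_apply_ne _ (by simpa using h)]

theorem Gr_sh {A : Matrix ι ι ℝ} (hT : TI A) (a : ι) (W : ι → ℂ) (x y : ι) :
    Gr A (sh a W) x y = Gr A W (x + a) (y + a) := by
  unfold Gr
  rw [Kmat_sh hT, Matrix.inv_submatrix_equiv]
  rfl

theorem mm_sh {A : Matrix ι ι ℝ} (hT : TI A) (a : ι) (W : ι → ℂ) (x : ι) :
    mm A (sh a W) x = mm A W (x + a) := by
  rw [mm, mm, Gr_sh hT]

theorem KK_sh {A : Matrix ι ι ℝ} (hT : TI A) (a : ι) (W : ι → ℂ) (x y : ι) :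
    KK A (sh a W) x y = KK A W (x + a) (y + a) := by
  rw [KK, KK, Gr_sh hT]

theorem PP_sh {A : Matrix ι ι ℝ} (hT : TI A) (a : ι) (W : ι → ℂ) (x y : ι) :
    PP A (sh a W) x y = PP A W (x + a) (y + a) := by
  rw [PP, PP, KK_sh hT, mm_sh hT, sh_apply]

theorem muf_sh {A : Matrix ι ι ℝ} (hT : TI A) (a : ι) (W : ι → ℂ) (f : ι → ℝ) (x : ι) :
    muf A (sh a W) (sh a f) x = muf A W f (x + a) := by
  simp only [muf, PP_sh hT, sh_apply]
  congr 1
  exact Equiv.sum_comp (Equiv.addRight a) fun y => PP A W (x + a) y * f y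

omit [DecidableEq ι] in
/-- invariance of product measures -/
theorem measurePreserving_sh {β : Type*} [MeasurableSpace β] (ρ : Measure β) [SigmaFinite ρ]
    (a : ι) : MeasurePreserving (sh a : (ι → β) → (ι → β)) (Measure.pi fun _ => ρ)
      (Measure.pi fun _ => ρ) := by
  have h := measurePreserving_piCongrLeft (α := fun _ : ι => β) (fun _ : ι => ρ)
    (Equiv.addRight (-a) : ι ≃ ι)
  have e : (sh a : (ι → β) → (ι → β)) =
      MeasurableEquiv.piCongrLeft (fun _ : ι => β) (Equiv.addRight (-a) : ι ≃ ι) := by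
    funext f x
    have h1 := MeasurableEquiv.coe_piCongrLeft (π := fun _ : ι => β)
      (Equiv.addRight (-a) : ι ≃ ι)
    rw [h1]
    have h2 := Equiv.piCongrLeft_apply_apply (fun _ : ι => β) (Equiv.addRight (-a) : ι ≃ ι) f
      (x + a)
    simp only [Equiv.coe_addRight, add_neg_cancel_right] at h2
    rw [h2]
    rfl
  rw [e]
  exact h

/-- the shift as a measurable equivalence -/
def shEquiv {β : Type*} [MeasurableSpace β] (a : ι) : (ι → β) ≃ᵐ (ι → β) where
  toFun := sh a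
  invFun := sh (-a)
  left_inv f := by rw [sh_sh, neg_add_cancel, sh_zero]
  right_inv f := by rw [sh_sh, add_neg_cancel, sh_zero]
  measurable_toFun := measurable_pi_lambda _ fun x => measurable_pi_apply _
  measurable_invFun := measurable_pi_lambda _ fun x => measurable_pi_apply _

omit [DecidableEq ι] in
/-- no measurability needed -/
theorem integral_sh {β : Type*} [MeasurableSpace β] (ρ : Measure β) [SigmaFinite ρ]
    (a : ι) (F : (ι → β) → ℝ) :
    ∫ c, F (sh a c) ∂(Measure.pi fun _ : ι => ρ) = ∫ c, F c ∂(Measure.pi fun _ : ι => ρ) :=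
  MeasurePreserving.integral_comp' (f := shEquiv a) (measurePreserving_sh ρ a) F

omit [DecidableEq ι] in
theorem lintegral_sh {β : Type*} [MeasurableSpace β] (ρ : Measure β) [SigmaFinite ρ]
    (a : ι) (F : (ι → β) → ℝ≥0∞) :
    ∫⁻ c, F (sh a c) ∂(Measure.pi fun _ : ι => ρ) = ∫⁻ c, F c ∂(Measure.pi fun _ : ι => ρ) :=
  (measurePreserving_sh ρ a).lintegral_comp_emb (shEquiv a).measurableEmbedding F

omit [Fintype ι] [DecidableEq ι] in
theorem Wp_sh (γ : ℝ) (e U c : ι → ℝ) (a : ι) :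
    Wp γ (sh a e) (sh a U) (sh a c) = sh a (Wp γ e U c) := rfl

omit [DecidableEq ι] in
/-- quenched expectation in a translated environment -/
theorem EEp_sh (γ : ℝ) (e U : ι → ℝ) (F : (ι → ℂ) → ℝ) (a : ι) :
    EEp γ (sh a e) (sh a U) F = EEp γ e U fun W => F (sh a W) := by
  unfold EEp
  have h := integral_sh nu a fun c => F (Wp γ (sh a e) (sh a U) c)
  simp only [Wp_sh] at h
  exact h.symm

/-- annealed expectation: `U` iid with law `ρ`, noise `c` iid Cauchy -/
noncomputable def EU (ρ : Measure ℝ) (γ : ℝ) (e : ι → ℝ) (F : (ι → ℂ) → ℝ) : ℝ :=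
  ∫ U, EEp γ e U F ∂(Measure.pi fun _ : ι => ρ)

omit [DecidableEq ι] in
theorem EU_sh (ρ : Measure ℝ) [SigmaFinite ρ] (γ : ℝ) (e : ι → ℝ) (F : (ι → ℂ) → ℝ) (a : ι) :
    EU ρ γ (sh a e) F = EU ρ γ e fun W => F (sh a W) := by
  unfold EU
  rw [← integral_sh ρ a fun U => EEp γ (sh a e) U F]
  simp only [EEp_sh]

omit [DecidableEq ι] in
/-- stationarity for a constant absorption profile -/
theorem EU_stat (ρ : Measure ℝ) [SigmaFinite ρ] (γ e : ℝ) (F : (ι → ℂ) → ℝ) (a : ι) :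
    EU ρ γ (fun _ : ι => e) (fun W => F (sh a W)) = EU ρ γ (fun _ : ι => e) F := by
  rw [← EU_sh, sh_const]

/-- covariance: `F x (sh a W) = F (x + a) W` -/
def Cov {β : Type*} (F : ι → (ι → ℂ) → β) : Prop := ∀ a x W, F x (sh a W) = F (x + a) W

/-- covariance for two sites -/
def Cov2 {β : Type*} (F : ι → ι → (ι → ℂ) → β) : Prop :=
  ∀ a x y W, F x y (sh a W) = F (x + a) (y + a) W

omit [DecidableEq ι] in
theorem EU_cov (ρ : Measure ℝ) [SigmaFinite ρ] (γ e : ℝ) {F : ι → (ι → ℂ) → ℝ} (hF : Cov F)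
    (x : ι) : EU ρ γ (fun _ : ι => e) (F x) = EU ρ γ (fun _ : ι => e) (F 0) := by
  rw [← EU_stat ρ γ e (F 0) x]
  congr 1
  funext W
  rw [hF, zero_add]

omit [DecidableEq ι] in
theorem EU_cov2 (ρ : Measure ℝ) [SigmaFinite ρ] (γ e : ℝ) {F : ι → ι → (ι → ℂ) → ℝ}
    (hF : Cov2 F) (a x y : ι) :
    EU ρ γ (fun _ : ι => e) (F (x + a) (y + a)) = EU ρ γ (fun _ : ι => e) (F x y) := by
  rw [← EU_stat ρ γ e (F x y) a]
  congr 1
  funext W
  rw [hF]

theorem Cov_mm {A : Matrix ι ι ℝ} (hT : TI A) : Cov fun x W => mm A W x :=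
  fun a x W => mm_sh hT a W x

theorem Cov2_KK {A : Matrix ι ι ℝ} (hT : TI A) : Cov2 fun x y W => KK A W x y :=
  fun a x y W => KK_sh hT a W x y

theorem Cov2_PP {A : Matrix ι ι ℝ} (hT : TI A) : Cov2 fun x y W => PP A W x y :=
  fun a x y W => PP_sh hT a W x y

omit [DecidableEq ι] in
/-- **mass transport** -/
theorem mass_transport (ρ : Measure ℝ) [SigmaFinite ρ] (γ e : ℝ) {F : ι → ι → (ι → ℂ) → ℝ}
    (hF : Cov2 F) :
    ∑ y, EU ρ γ (fun _ : ι => e) (F 0 y) = ∑ y, EU ρ γ (fun _ : ι => e) (F y 0) := by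
  rw [← Equiv.sum_comp (Equiv.neg ι) fun y => EU ρ γ (fun _ : ι => e) (F y 0)]
  refine Finset.sum_congr rfl fun y _ => ?_
  rw [← EU_cov2 ρ γ e hF (-y) 0 y]
  simp [Equiv.neg_apply]


omit [DecidableEq ι] [AddCommGroup ι] in
theorem measurable_Wp2 (γ : ℝ) (e : ι → ℝ) :
    Measurable fun p : (ι → ℝ) × (ι → ℝ) => Wp γ e p.1 p.2 := by
  refine measurable_pi_lambda _ fun x => ?_
  unfold Wp Wc
  have h1 : Measurable fun p : (ι → ℝ) × (ι → ℝ) => ((p.1 x : ℝ) : ℂ) :=
    Complex.measurable_ofReal.comp ((measurable_pi_apply x).comp measurable_fst)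
  have h2 : Measurable fun p : (ι → ℝ) × (ι → ℝ) => ((p.2 x : ℝ) : ℂ) :=
    Complex.measurable_ofReal.comp ((measurable_pi_apply x).comp measurable_snd)
  exact (h1.add (h2.const_mul _)).sub_const _

omit [DecidableEq ι] [AddCommGroup ι] in
theorem integrable_EEp (ρ : Measure ℝ) [IsProbabilityMeasure ρ] {F : (ι → ℂ) → ℝ} (hF : Adm F)
    {e : ι → ℝ} (he : ∀ x, 0 < e x) (γ : ℝ) :
    Integrable (fun U => EEp γ e U F) (Measure.pi fun _ : ι => ρ) := by
  obtain ⟨η, hη, hηe⟩ := exists_lower' he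
  obtain ⟨C, hC⟩ := hF.bdd η hη
  have hb : ∀ U c : ι → ℝ, |F (Wp γ e U c)| ≤ C := fun U c =>
    hC _ fun x => by rw [Wp_im]; linarith [hηe x]
  have hm : StronglyMeasurable fun p : (ι → ℝ) × (ι → ℝ) => F (Wp γ e p.1 p.2) :=
    (hF.meas.comp (measurable_Wp2 γ e)).stronglyMeasurable
  refine Integrable.of_bound (hm.integral_prod_right (ν := mu ι)).aestronglyMeasurable C
    (Filter.Eventually.of_forall fun U => ?_)
  unfold EEp
  refine (norm_integral_le_of_norm_le_const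
    (Filter.Eventually.of_forall fun c => hb U c)).trans ?_
  simp

omit [DecidableEq ι] in
/-- **averaging over the sites = expectation at one site** -/
theorem EU_zero_eq_avg (ρ : Measure ℝ) [IsProbabilityMeasure ρ] {F : ι → (ι → ℂ) → ℝ}
    (hF : Cov F) (hA : ∀ x, Adm (F x)) {e : ℝ} (he : 0 < e) (γ : ℝ) :
    (Fintype.card ι : ℝ) * EU ρ γ (fun _ : ι => e) (F 0) =
      ∫ U, ∑ x, EEp γ (fun _ : ι => e) U (F x) ∂(Measure.pi fun _ : ι => ρ) := by
  rw [integral_finset_sum _ fun x _ => integrable_EEp ρ (hA x) (fun _ => he) γ]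
  have h : ∀ x ∈ (Finset.univ : Finset ι),
      ∫ U, EEp γ (fun _ : ι => e) U (F x) ∂(Measure.pi fun _ : ι => ρ) =
        EU ρ γ (fun _ : ι => e) (F 0) := fun x _ => EU_cov ρ γ e hF x
  rw [Finset.sum_congr rfl h, Finset.sum_const, Finset.card_univ, nsmul_eq_mul]

omit [DecidableEq ι] [AddCommGroup ι] in
theorem ae_bounded (ρ : Measure ℝ) [IsProbabilityMeasure ρ] {B : ℝ}
    (hB : ρ (Set.Icc (-B) B)ᶜ = 0) :
    ∀ᵐ U : ι → ℝ ∂(Measure.pi fun _ : ι => ρ), ∀ x, |U x| ≤ B := by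
  rw [ae_all_iff]
  intro x
  have h1 : ∀ᵐ t ∂ρ, |t| ≤ B := by
    refine measure_mono_null ?_ hB
    intro t ht h
    exact ht (abs_le.2 ⟨h.1, h.2⟩)
  exact (measurePreserving_eval (fun _ : ι => ρ) x).quasiMeasurePreserving.ae h1

omit [DecidableEq ι] in
/-- from a quenched bound for the sum over the sites to an annealed bound at one site -/
theorem EU_le_of_sum (ρ : Measure ℝ) [IsProbabilityMeasure ρ] {B : ℝ}
    (hB : ρ (Set.Icc (-B) B)ᶜ = 0) {F : ι → (ι → ℂ) → ℝ}
    (hF : Cov F) (hA : ∀ x, Adm (F x)) {e : ℝ} (he : 0 < e) (γ : ℝ) {C : ℝ}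
    (h : ∀ U : ι → ℝ, (∀ x, |U x| ≤ B) →
      ∑ x, EEp γ (fun _ : ι => e) U (F x) ≤ C * (Fintype.card ι : ℝ)) :
    EU ρ γ (fun _ : ι => e) (F 0) ≤ C := by
  have hc : (0 : ℝ) < Fintype.card ι := by
    have : Nonempty ι := ⟨0⟩
    exact_mod_cast Fintype.card_pos
  have h1 := EU_zero_eq_avg ρ hF hA he γ
  have h2 : ∫ U, ∑ x, EEp γ (fun _ : ι => e) U (F x) ∂(Measure.pi fun _ : ι => ρ) ≤
      ∫ _U : ι → ℝ, C * (Fintype.card ι : ℝ) ∂(Measure.pi fun _ : ι => ρ) := by
    refine integral_mono_ae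
      (integrable_finset_sum _ fun x _ => integrable_EEp ρ (hA x) (fun _ => he) γ)
      (integrable_const _) ?_
    filter_upwards [ae_bounded ρ hB] with U hU
    exact h U hU
  simp only [integral_const, probReal_univ, one_smul] at h2
  rw [← h1, mul_comm] at h2
  exact le_of_mul_le_mul_right h2 hc

omit [DecidableEq ι] [AddCommGroup ι] in
theorem EU_mono_adm (ρ : Measure ℝ) [IsProbabilityMeasure ρ] {F G : (ι → ℂ) → ℝ}
    (hF : Adm F) (hG : Adm G) {e : ι → ℝ} (he : ∀ x, 0 < e x) (γ : ℝ)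
    (h : ∀ W : ι → ℂ, (∀ x, (W x).im < 0) → F W ≤ G W) :
    EU ρ γ e F ≤ EU ρ γ e G := by
  unfold EU
  refine integral_mono (integrable_EEp ρ hF he γ) (integrable_EEp ρ hG he γ) fun U => ?_
  exact integral_mono (hF.integrable he γ U) (hG.integrable he γ U) fun c =>
    h _ fun x => by rw [Wp_im]; linarith [he x]

omit [DecidableEq ι] [AddCommGroup ι] in
theorem EU_add (ρ : Measure ℝ) [IsProbabilityMeasure ρ] {F G : (ι → ℂ) → ℝ}
    (hF : Adm F) (hG : Adm G) {e : ι → ℝ} (he : ∀ x, 0 < e x) (γ : ℝ) :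
    EU ρ γ e (fun W => F W + G W) = EU ρ γ e F + EU ρ γ e G := by
  unfold EU
  rw [← integral_add (integrable_EEp ρ hF he γ) (integrable_EEp ρ hG he γ)]
  refine integral_congr_ae (Filter.Eventually.of_forall fun U => ?_)
  exact integral_add (hF.integrable he γ U) (hG.integrable he γ U)

omit [DecidableEq ι] [AddCommGroup ι] in
theorem EU_smul (ρ : Measure ℝ) (γ : ℝ) (e : ι → ℝ) (a : ℝ) (F : (ι → ℂ) → ℝ) :
    EU ρ γ e (fun W => a * F W) = a * EU ρ γ e F := by
  unfold EU EEp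
  simp only [integral_const_mul]

omit [DecidableEq ι] [AddCommGroup ι] in
theorem EU_finset_sum (ρ : Measure ℝ) [IsProbabilityMeasure ρ] {κ : Type*} (s : Finset κ)
    {F : κ → (ι → ℂ) → ℝ} (hF : ∀ i, Adm (F i)) {e : ι → ℝ} (he : ∀ x, 0 < e x) (γ : ℝ) :
    EU ρ γ e (fun W => ∑ i ∈ s, F i W) = ∑ i ∈ s, EU ρ γ e (F i) := by
  unfold EU
  rw [← integral_finset_sum _ fun i _ => integrable_EEp ρ (hF i) he γ]
  refine integral_congr_ae (Filter.Eventually.of_forall fun U => ?_)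
  exact integral_finset_sum _ fun i _ => (hF i).integrable he γ U

end shift

end P365L
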